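import Vale.Agent.P204.Full.Top
import Vale.Agent.P204.Full.Potential.Potential

/-!
The tamed-to-compatible theorem on every closed four-manifold.
-/

noncomputable section

namespace Vale.Agent.P204.Full

universe u

/-- Donaldson's tamed-to-compatible conjecture. -/
theorem tamedToCompatible : TamedToCompatible.{u} :=
  tamedToCompatible_of_remaining Potential.potential_statement

end Vale.Agent.P204.Full
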