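import Vale.Agent.P204.Full.Interfaces

/-!
Assembly of the tamed-to-compatible theorem from the module statements.
-/

open scoped Manifold ContDiff
open MeasureTheory Set

noncomputable section

namespace Vale.Agent.P204.Full

universe u

theorem tamedToCompatible_of_modules
    (hGeo : GeoStatement.{u}) (hIn : BridgeInStatement.{u}) (hOut : BridgeOutStatement.{u})
    (hT : RightInverseStatement.{u}) (hObs : ObstructionStatement.{u})
    (hS : SmootherStatement.{u}) (hBoot : BootstrapStatement.{u})
    (hDens : DensityStatement.{u}) (hSplit : SplittingStatement.{u})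
    (hInter : IntersectionStatement.{u}) (hPos : PositivityStatement.{u}) :
    TamedToCompatible.{u} := by
  intro X _ _ _ _ _ J hJ hform
  obtain ⟨form, hsymp, htame⟩ := hform
  obtain ⟨t, htc, htp⟩ := hIn X J form hsymp htame
  obtain ⟨G, hGJ⟩ := hGeo X J hJ
  let : MeasurableSpace X := borel X
  have : BorelSpace X := ⟨rfl⟩
  have htp' : ∀ (x : X) (v : R4), v ≠ 0 → 0 < t x v (G.J x v) := by
    intro x v hv
    rw [hGJ x]
    exact htp x v hv
  by_cases hex : ∃ θ, Closed2 θ ∧ G.Inv θ ∧ ∀ (x : X) (v : R4), v ≠ 0 → 0 < θ x v (G.J x v)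
  · obtain ⟨θ, h1, h2, h3⟩ := hex
    refine hOut X J θ h1 ?_ ?_
    · intro x u v
      have h := h2 x u v
      rw [hGJ x] at h
      exact h
    · intro x v hv
      have h := h3 x v hv
      rw [hGJ x] at h
      exact h
  · exfalso
    obtain ⟨D, hD⟩ := hObs X G hex (hT X G)
    obtain ⟨S⟩ := hS X G
    obtain ⟨hb, hm, hq⟩ := hDens X G D (hBoot X G D S)
    have hQ := hInter X G D S hb hq (hSplit X G D hb hm hq)
    obtain ⟨⟨hsm, hanti⟩, hmass⟩ := hPos X G t htc.1
    have hk := D.kills t htc
    rw [hQ _ hsm hanti, add_zero] at hk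
    exact hD (hmass htp' D.toPosCur hk)

end Vale.Agent.P204.Full
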