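import Vale.Agent.P204.Full.Defs

/-!
Module interfaces for the tamed-to-compatible theorem. Each `...Statement` is proved in its own file;
nothing here is an assumption of the final theorem.
-/

open scoped Manifold ContDiff Topology
open MeasureTheory Set Filter

noncomputable section

namespace Vale.Agent.P204.Full

universe u

/-- Every smooth almost complex structure on a closed manifold extends to geometric data. -/
def GeoStatement : Prop :=
  ∀ (X : Type u) [TopologicalSpace X] [T2Space X] [CompactSpace X] [ChartedSpace R4 X]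
    [IsManifold 𝓘(ℝ, R4) ∞ X] (J : EndField X), IsAlmostComplex J →
      ∃ G : Geo X, ∀ x, G.J x = J x

/-- Translation of a taming symplectic form to a field. -/
def BridgeInStatement : Prop :=
  ∀ (X : Type u) [TopologicalSpace X] [T2Space X] [CompactSpace X] [ChartedSpace R4 X]
    [IsManifold 𝓘(ℝ, R4) ∞ X] (J : EndField X) (form : TwoForm X),
      IsSymplecticForm form → Tames form J →
        ∃ θ : X → Bil, Closed2 θ ∧ ∀ (x : X) (v : R4), v ≠ 0 → 0 < θ x v (J x v)

/-- Translation of a closed invariant positive field to a compatible symplectic form. -/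
def BridgeOutStatement : Prop :=
  ∀ (X : Type u) [TopologicalSpace X] [T2Space X] [CompactSpace X] [ChartedSpace R4 X]
    [IsManifold 𝓘(ℝ, R4) ∞ X] (J : EndField X) (θ : X → Bil),
      Closed2 θ → (∀ (x : X) (u v : R4), θ x (J x u) (J x v) = θ x u v) →
      (∀ (x : X) (v : R4), v ≠ 0 → 0 < θ x v (J x v)) →
        ∃ form : TwoForm X, IsSymplecticForm form ∧ IsCompatible form J

section

variable {X : Type u} [TopologicalSpace X] [T2Space X] [CompactSpace X] [ChartedSpace R4 X]
  [IsManifold 𝓘(ℝ, R4) ∞ X] [MeasurableSpace X] [BorelSpace X]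

/-- A linear right inverse of `θ ↦ θ^{20}` on closed forms, continuous from some Sobolev norm. -/
def HasRightInverse (G : Geo X) : Prop :=
  ∃ T : (X → Bil) →ₗ[ℝ] (X → Bil),
    (∀ b, Smooth2 b → G.Anti b → Closed2 (T b) ∧ G.p20 (T b) = b) ∧
      ∃ (N : ℕ) (C : ℝ), ∀ b, Smooth2 b → G.Anti b → ∀ x, G.nrm2 (T b) x ≤ C * G.hsum N b

/-- Without a compatible form there is a nonzero positive current with a partner killing `Z`. -/
def HasObstruction (G : Geo X) : Prop :=
  (¬ ∃ θ, Closed2 θ ∧ G.Inv θ ∧ ∀ (x : X) (v : R4), v ≠ 0 → 0 < θ x v (G.J x v)) →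
    HasRightInverse G → ∃ D : Pair G, D.mu univ ≠ 0

/-- Conclusion of the bootstrap over scales. -/
def ScaleBound {G : Geo X} (D : Pair G) : Prop :=
  ∃ (k : ℕ) (C s1 : ℝ), 0 < s1 ∧ ∀ s, 0 < s → s ≤ s1 → ∀ b, Smooth2 b → G.Anti b →
    |D.Q b| ≤ C * Real.sqrt (1 + G.nu D.mu s) * G.sk k s b

/-- The two-dimensional density is bounded. -/
def DensBounded {G : Geo X} (D : Pair G) : Prop :=
  ∃ C : ℝ, ∀ x r, 0 < r → r ≤ 1 → G.dens D.mu r x ≤ C

/-- Almost monotonicity of the density. -/
def DensMonotone {G : Geo X} (D : Pair G) : Prop :=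
  ∃ C R1 : ℝ, 1 ≤ C ∧ 0 < R1 ∧ ∀ x r R, 0 < r → C * r ≤ R → R ≤ R1 →
    G.dens D.mu r x ≤ C * G.dens D.mu R x + C * R

/-- `Q` is dominated by a square integrable density. -/
def QSquareIntegrable {G : Geo X} (D : Pair G) : Prop :=
  ∃ h : X → ℝ, (∀ x, 0 ≤ h x) ∧ MemLp h 2 G.vol ∧
    ∀ b, Smooth2 b → G.Anti b → |D.Q b| ≤ ∫ x, h x * G.nrm2 b x ∂G.vol

/-- A closed part of `P` carrying all positive two-dimensional density. -/
def HasSplitting {G : Geo X} (D : Pair G) : Prop :=
  ∃ S R : PosCur G, (∀ θ, Cont2 θ → D.P θ = S.P θ + R.P θ) ∧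
    S.mu ≤ D.mu ∧ R.mu ≤ D.mu ∧
    (∀ α, Smooth1 α → S.P (extD1 α) = 0) ∧
    ∀ K : ℝ, 1 ≤ K → Tendsto (fun s => integral R.mu fun x => G.dens D.mu (K * s) x) (𝓝[>] (0 : ℝ)) (𝓝 0)

end

/-- The module statements, for one manifold and one choice of data. -/
def RightInverseStatement : Prop :=
  ∀ (X : Type u) [TopologicalSpace X] [T2Space X] [CompactSpace X] [ChartedSpace R4 X]
    [IsManifold 𝓘(ℝ, R4) ∞ X] [MeasurableSpace X] [BorelSpace X] (G : Geo X), HasRightInverse G

def ObstructionStatement : Prop :=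
  ∀ (X : Type u) [TopologicalSpace X] [T2Space X] [CompactSpace X] [ChartedSpace R4 X]
    [IsManifold 𝓘(ℝ, R4) ∞ X] [MeasurableSpace X] [BorelSpace X] (G : Geo X), HasObstruction G

def SmootherStatement : Prop :=
  ∀ (X : Type u) [TopologicalSpace X] [T2Space X] [CompactSpace X] [ChartedSpace R4 X]
    [IsManifold 𝓘(ℝ, R4) ∞ X] [MeasurableSpace X] [BorelSpace X] (G : Geo X),
      Nonempty (Smoother G)

def BootstrapStatement : Prop :=
  ∀ (X : Type u) [TopologicalSpace X] [T2Space X] [CompactSpace X] [ChartedSpace R4 X]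
    [IsManifold 𝓘(ℝ, R4) ∞ X] [MeasurableSpace X] [BorelSpace X] (G : Geo X) (D : Pair G),
      Smoother G → ScaleBound D

def DensityStatement : Prop :=
  ∀ (X : Type u) [TopologicalSpace X] [T2Space X] [CompactSpace X] [ChartedSpace R4 X]
    [IsManifold 𝓘(ℝ, R4) ∞ X] [MeasurableSpace X] [BorelSpace X] (G : Geo X) (D : Pair G),
      ScaleBound D → DensBounded D ∧ DensMonotone D ∧ QSquareIntegrable D

def SplittingStatement : Prop :=
  ∀ (X : Type u) [TopologicalSpace X] [T2Space X] [CompactSpace X] [ChartedSpace R4 X]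
    [IsManifold 𝓘(ℝ, R4) ∞ X] [MeasurableSpace X] [BorelSpace X] (G : Geo X) (D : Pair G),
      DensBounded D → DensMonotone D → QSquareIntegrable D → HasSplitting D

def IntersectionStatement : Prop :=
  ∀ (X : Type u) [TopologicalSpace X] [T2Space X] [CompactSpace X] [ChartedSpace R4 X]
    [IsManifold 𝓘(ℝ, R4) ∞ X] [MeasurableSpace X] [BorelSpace X] (G : Geo X) (D : Pair G),
      Smoother G → DensBounded D → QSquareIntegrable D → HasSplitting D →
        ∀ b, Smooth2 b → G.Anti b → D.Q b = 0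

/-- Positivity: a current killing a strictly positive form has no mass, and `θ^{20}` is a form. -/
def PositivityStatement : Prop :=
  ∀ (X : Type u) [TopologicalSpace X] [T2Space X] [CompactSpace X] [ChartedSpace R4 X]
    [IsManifold 𝓘(ℝ, R4) ∞ X] [MeasurableSpace X] [BorelSpace X] (G : Geo X) (θ : X → Bil),
      Smooth2 θ → (Smooth2 (G.p20 θ) ∧ G.Anti (G.p20 θ)) ∧
        ((∀ (x : X) (v : R4), v ≠ 0 → 0 < θ x v (G.J x v)) →
          ∀ C : PosCur G, C.P θ = 0 → C.mu univ = 0)

end Vale.Agent.P204.Full
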