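import Vale.Agent.P204.Full.Defs

/-!
Shared facts. The foundation module proves `BaseFacts G` and `PointFacts G` for every `G`;
other modules may take them as arguments and never reprove them.
-/

open scoped Manifold ContDiff
open MeasureTheory Set

noncomputable section

namespace Vale.Agent.P204.Full

universe u

/-- Pointwise algebra, with constants uniform in the point. -/
structure PointFacts {X : Type u} [TopologicalSpace X] [ChartedSpace R4 X]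
    [IsManifold 𝓘(ℝ, R4) ∞ X] (G : Geo X) : Prop where
  W_symm : ∀ x a b, G.W x a b = G.W x b a
  W_omega : ∀ x, G.W x (G.omega x) (G.omega x) = 1
  omega_at : ∀ x, G.PosAt x (G.omega x)
  W_inv_anti : ∀ x a b, G.InvAt x a → G.AntiAt x b → G.W x a b = 0
  inv11_at : ∀ x b, IsAlt b → G.InvAt x (inv11 (G.J x) b)
  anti20_at : ∀ x b, IsAlt b → G.AntiAt x (anti20 (G.J x) b)
  split : ∀ x b, inv11 (G.J x) b + anti20 (G.J x) b = b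
  inv11_pos : ∀ x b v, IsAlt b → inv11 (G.J x) b v (G.J x v) = b v (G.J x v)
  posForm_at : ∀ x α, G.PosAt x (posForm (G.J x) α)
  inv11_wedge_symm : ∀ x (α β : Cov),
    inv11 (G.J x) (wedgeCov α (-(β.comp (G.J x)))) =
      inv11 (G.J x) (wedgeCov β (-(α.comp (G.J x))))
  W_bound : ∃ C : ℝ, ∀ x a b, IsAlt a → IsAlt b → |G.W x a b| ≤ C * G.nrmVal x a * G.nrmVal x b
  W_anti : ∃ C : ℝ, 0 < C ∧ ∀ x b, G.AntiAt x b → G.nrmVal x b ^ 2 ≤ C * G.W x b b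
  pos_nrm : ∃ C : ℝ, 0 < C ∧ ∀ x b, G.PosAt x b → G.nrmVal x b ≤ C * G.W x b (G.omega x)
  inv_le : ∃ C : ℝ, ∀ x b, G.InvAt x b → ∀ v : R4,
    |b v (G.J x v)| ≤ C * G.nrmVal x b * G.metric x v v
  pos_W : ∀ x a b, G.PosAt x a → G.PosAt x b → 0 ≤ G.W x a b
  W_dual : ∀ x a, G.InvAt x a → (∀ α : Cov, 0 ≤ G.W x a (posForm (G.J x) α)) → G.PosAt x a
  W_inv : ∃ C : ℝ, 0 < C ∧ ∀ x b, G.InvAt x b →
    G.nrmVal x b ^ 2 ≤ C * (2 * G.W x b (G.omega x) ^ 2 - G.W x b b)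
  pi_bound : ∃ C : ℝ, ∀ x b, IsAlt b →
    G.nrmVal x (inv11 (G.J x) b) ≤ C * G.nrmVal x b ∧
      G.nrmVal x (anti20 (G.J x) b) ≤ C * G.nrmVal x b

/-- Calculus, integration and the geometry of `near`. -/
structure BaseFacts {X : Type u} [TopologicalSpace X] [ChartedSpace R4 X]
    [IsManifold 𝓘(ℝ, R4) ∞ X] [MeasurableSpace X] (G : Geo X) : Prop where
  smooth_view1 : ∀ α, Smooth1 α → ∀ c ∈ IsManifold.maximalAtlas 𝓘(ℝ, R4) ∞ X,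
    ContDiffOn ℝ ∞ (view1 c α) c.target
  smooth_view2 : ∀ θ, Smooth2 θ → ∀ c ∈ IsManifold.maximalAtlas 𝓘(ℝ, R4) ∞ X,
    ContDiffOn ℝ ∞ (view2 c θ) c.target
  cont_view2 : ∀ θ, Cont2 θ → ∀ c ∈ IsManifold.maximalAtlas 𝓘(ℝ, R4) ∞ X,
    ContinuousOn (view2 c θ) c.target
  smooth_cont : ∀ θ : X → Bil, Smooth2 θ → Cont2 θ
  d_view : ∀ α, Smooth1 α → ∀ c ∈ IsManifold.maximalAtlas 𝓘(ℝ, R4) ∞ X, ∀ y ∈ c.target,
    view2 c (extD1 α) y = d1At (view1 c α) y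
  closed_view : ∀ θ, Closed2 θ → ∀ c ∈ IsManifold.maximalAtlas 𝓘(ℝ, R4) ∞ X, ∀ y ∈ c.target,
    ∀ u v w : R4, d2At (view2 c θ) y u v w = 0
  exact_closed : ∀ α : X → Cov, Smooth1 α → Closed2 (extD1 α)
  dfun_smooth : ∀ f : X → ℝ, ContMDiff 𝓘(ℝ, R4) 𝓘(ℝ, ℝ) ∞ f → Smooth1 (dfun f)
  smul1 : ∀ (f : X → ℝ) (α : X → Cov), ContMDiff 𝓘(ℝ, R4) 𝓘(ℝ, ℝ) ∞ f → Smooth1 α →
    Smooth1 (fun x => f x • α x)
  smul2 : ∀ (f : X → ℝ) (θ : X → Bil), ContMDiff 𝓘(ℝ, R4) 𝓘(ℝ, ℝ) ∞ f → Smooth2 θ →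
    Smooth2 (fun x => f x • θ x)
  wedge_smooth : ∀ α β : X → Cov, Smooth1 α → Smooth1 β →
    Smooth2 (fun x => wedgeCov (α x) (β x))
  compJ_smooth : ∀ α : X → Cov, Smooth1 α → Smooth1 (fun x => (α x).comp (G.J x))
  d_smul : ∀ (f : X → ℝ) (α : X → Cov), ContMDiff 𝓘(ℝ, R4) 𝓘(ℝ, ℝ) ∞ f → Smooth1 α → ∀ x,
    extD1 (fun z => f z • α z) x = wedgeCov (dfun f x) (α x) + f x • extD1 α x
  push1_smooth : ∀ c ∈ IsManifold.maximalAtlas 𝓘(ℝ, R4) ∞ X, ∀ α : R4 → Cov,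
    ContDiff ℝ ∞ α → HasCompactSupport α → tsupport α ⊆ c.target →
      Smooth1 (push1 c α) ∧ ∀ y ∈ c.target, view1 c (push1 c α) y = α y
  push2_smooth : ∀ c ∈ IsManifold.maximalAtlas 𝓘(ℝ, R4) ∞ X, ∀ θ : R4 → Bil,
    (∀ y, IsAlt (θ y)) → ContDiff ℝ ∞ θ → HasCompactSupport θ → tsupport θ ⊆ c.target →
      Smooth2 (push2 c θ) ∧ ∀ y ∈ c.target, view2 c (push2 c θ) y = θ y
  p11_smooth : ∀ θ, Smooth2 θ → Smooth2 (G.p11 θ) ∧ G.Inv (G.p11 θ)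
  p20_smooth : ∀ θ, Smooth2 θ → Smooth2 (G.p20 θ) ∧ G.Anti (G.p20 θ)
  rho_nonneg : ∀ i x, 0 ≤ G.rho i x
  rho_sum : ∀ x, ∑ i, G.rho i x = 1
  rho_smooth : ∀ i, ContMDiff 𝓘(ℝ, R4) 𝓘(ℝ, ℝ) ∞ (G.rho i)
  rho_supp : ∀ i x, G.rho i x ≠ 0 → x ∈ (G.c i).source ∧ ‖G.c i x‖ < 2
  vol_finite : IsFiniteMeasure G.vol
  vol_chart : ∀ (i : Fin G.n) (f : X → ℝ), Integrable f G.vol →
    (∀ x, f x ≠ 0 → x ∈ (G.c i).source) →
      ∫ x, f x ∂G.vol = ∫ y in (G.c i).target,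
        f ((G.c i).symm y) * top22 (view2 (G.c i) G.omega y) (view2 (G.c i) G.omega y)
  W_view : ∀ c ∈ IsManifold.maximalAtlas 𝓘(ℝ, R4) ∞ X, ∀ (a b : X → Bil), (∀ x, IsAlt (a x)) →
    (∀ x, IsAlt (b x)) → ∀ y ∈ c.target, top22 (view2 c G.omega y) (view2 c G.omega y) ≠ 0 ∧
      G.W (c.symm y) (a (c.symm y)) (b (c.symm y)) =
        top22 (view2 c a y) (view2 c b y) / top22 (view2 c G.omega y) (view2 c G.omega y)
  W_cont : ∀ θ η, Cont2 θ → Cont2 η → Continuous fun x => G.W x (θ x) (η x)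
  W_smooth : ∀ θ η, Smooth2 θ → Smooth2 η →
    ContMDiff 𝓘(ℝ, R4) 𝓘(ℝ, ℝ) ∞ fun x => G.W x (θ x) (η x)
  pair_integrable : ∀ θ η, Cont2 θ → Cont2 η →
    Integrable (fun x => G.W x (θ x) (η x)) G.vol
  pair_closed_exact : ∀ θ α, Closed2 θ → Smooth1 α → G.pair θ (extD1 α) = 0
  closed_of_pair : ∀ θ, Smooth2 θ → (∀ α, Smooth1 α → G.pair θ (extD1 α) = 0) → Closed2 θ
  nrm2_cont : ∀ θ, Cont2 θ → Continuous (G.nrm2 θ)
  nrm2_view : ∃ C : ℝ, 1 ≤ C ∧ ∀ i (θ : X → Bil) (y : R4), ‖y‖ ≤ 3 →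
    ‖view2 (G.c i) θ y‖ ≤ C * G.nrm2 θ ((G.c i).symm y) ∧
      G.nrm2 θ ((G.c i).symm y) ≤ C * ‖view2 (G.c i) θ y‖
  l2_hn : ∃ C : ℝ, ∀ θ, Smooth2 θ → G.l2 θ ≤ C * G.hn 0 θ ∧ G.hn 0 θ ≤ C * G.l2 θ
  hn_add : ∀ j θ η, Smooth2 θ → Smooth2 η → G.hn j (θ + η) ≤ G.hn j θ + G.hn j η
  hn_smul : ∀ j (a : ℝ) θ, Smooth2 θ → G.hn j (a • θ) = |a| * G.hn j θ
  p20_hsum : ∀ j, ∃ C : ℝ, ∀ θ, Smooth2 θ →
    G.hsum j (G.p20 θ) ≤ C * G.hsum j θ ∧ G.hsum j (G.p11 θ) ≤ C * G.hsum j θ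
  sobolev : ∀ j, ∃ C : ℝ, ∀ θ, Smooth2 θ → ∀ i y,
    ‖iteratedFDeriv ℝ j (fun z => kappaBump z • view2 (G.c i) θ z) y‖ ≤ C * G.hsum (j + 4) θ
  sobolev_nrm : ∃ C : ℝ, ∀ θ, Smooth2 θ → ∀ x, G.nrm2 θ x ≤ C * G.hsum 4 θ
  near_symm : ∀ r x z, z ∈ G.near r x → x ∈ G.near r z
  near_self : ∀ r x, 0 ≤ r → x ∈ G.near r x
  near_closed : ∀ r, IsClosed {p : X × X | p.2 ∈ G.near r p.1}
  near_trans : ∃ C r0 : ℝ, 1 ≤ C ∧ 0 < r0 ∧ ∀ a b x y z, 0 ≤ a → 0 ≤ b → a + b ≤ r0 →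
    y ∈ G.near a x → z ∈ G.near b y → z ∈ G.near (C * (a + b)) x
  near_chart : ∃ C r0 : ℝ, 1 ≤ C ∧ 0 < r0 ∧ ∀ i x r, 0 ≤ r → r ≤ r0 →
    x ∈ (G.c i).source → ‖G.c i x‖ ≤ 5 / 2 →
      (G.c i).source ∩ G.c i ⁻¹' Metric.closedBall (G.c i x) r ⊆ G.near r x ∧
        G.near r x ⊆ (G.c i).source ∩ G.c i ⁻¹' Metric.closedBall (G.c i x) (C * r)
  vol_near : ∃ C : ℝ, ∀ r x, 0 < r → r ≤ 1 →
    G.vol.real (G.near r x) ≤ C * r ^ 4 ∧ r ^ 4 ≤ C * G.vol.real (G.near r x)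

/-- Facts common to all positive currents. -/
structure CurFacts {X : Type u} [TopologicalSpace X] [ChartedSpace R4 X]
    [IsManifold 𝓘(ℝ, R4) ∞ X] [MeasurableSpace X] (G : Geo X) : Prop where
  bound : ∃ C : ℝ, ∀ (D : PosCur G) (θ : X → Bil), Cont2 θ →
    |D.P θ| ≤ C * ∫ x, G.nrm2 θ x ∂D.mu
  via_inv : ∀ (D : PosCur G) (θ : X → Bil), Cont2 θ → D.P θ = D.P (G.p11 θ)
  lower : ∀ (D : PosCur G) (θ : X → Bil) (f : X → ℝ), Cont2 θ → Integrable f D.mu →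
    (∀ x, 0 ≤ f x) →
    (∀ (x : X) (v : R4), -(f x * G.metric x v v) ≤ θ x v (G.J x v)) →
      -(∫ x, f x ∂D.mu) ≤ D.P θ
  cauchy : ∀ (D : PosCur G) (α β : X → Cov), Smooth1 α → Smooth1 β →
    D.P (fun x => wedgeCov (α x) (-((β x).comp (G.J x)))) ^ 2 ≤
      D.P (fun x => posForm (G.J x) (α x)) * D.P (fun x => posForm (G.J x) (β x))

/-- The theorem on positive currents. -/
def CurStatement : Prop :=
  ∀ (X : Type u) [TopologicalSpace X] [T2Space X] [CompactSpace X] [ChartedSpace R4 X]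
    [IsManifold 𝓘(ℝ, R4) ∞ X] [MeasurableSpace X] [BorelSpace X] (G : Geo X), CurFacts G

/-- The foundation module's first theorem. -/
def PointStatement : Prop :=
  ∀ (X : Type u) [TopologicalSpace X] [T2Space X] [CompactSpace X] [ChartedSpace R4 X]
    [IsManifold 𝓘(ℝ, R4) ∞ X] (G : Geo X), PointFacts G

/-- The foundation module's second theorem. -/
def BaseStatement : Prop :=
  ∀ (X : Type u) [TopologicalSpace X] [T2Space X] [CompactSpace X] [ChartedSpace R4 X]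
    [IsManifold 𝓘(ℝ, R4) ∞ X] [MeasurableSpace X] [BorelSpace X] (G : Geo X), BaseFacts G

end Vale.Agent.P204.Full
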