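import Vale.Agent.P204.Full.Statement

/-!
Internal objects for the proof of the tamed-to-compatible theorem.

Fields of forms are functions into the model spaces, the value at `x` being read in `chartAt R4 x`
(this is literally `TangentSpace`). `view1`, `view2` read them in any chart.
`G.W x a b` is the ratio `a ∧ b / ω ∧ ω`, and `G.vol` is the measure `ω ∧ ω`, so that
`G.pair θ η = ∫ θ ∧ η` with no further sign or normalisation.
-/

open scoped Manifold ContDiff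
open MeasureTheory Set

noncomputable section

namespace Vale.Agent.P204.Full

universe u

abbrev Cov : Type := R4 →L[ℝ] ℝ
abbrev Bil : Type := R4 →L[ℝ] R4 →L[ℝ] ℝ
abbrev Endo : Type := R4 →L[ℝ] R4

/-! ### Pointwise operations -/

def bvec (i : Fin 4) : R4 := EuclideanSpace.single i 1

def pullCov (A : Endo) (α : Cov) : Cov := α.comp A

def pullBil (A : Endo) (b : Bil) : Bil := b.bilinearComp A A

def IsAlt (b : Bil) : Prop := ∀ u v : R4, b u v = -(b v u)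

/-- Wedge product of two covectors. -/
def wedgeCov (α β : Cov) : Bil := α.smulRight β - β.smulRight α

/-- Coefficient of `a ∧ b` on the standard basis. -/
def top22 (a b : Bil) : ℝ :=
  a (bvec 0) (bvec 1) * b (bvec 2) (bvec 3) - a (bvec 0) (bvec 2) * b (bvec 1) (bvec 3) +
    a (bvec 0) (bvec 3) * b (bvec 1) (bvec 2) + a (bvec 1) (bvec 2) * b (bvec 0) (bvec 3) -
    a (bvec 1) (bvec 3) * b (bvec 0) (bvec 2) + a (bvec 2) (bvec 3) * b (bvec 0) (bvec 1)

/-- Invariant part with respect to a complex structure. -/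
def inv11 (J : Endo) (b : Bil) : Bil := (2⁻¹ : ℝ) • (b + pullBil J b)

/-- Anti-invariant part with respect to a complex structure. -/
def anti20 (J : Endo) (b : Bil) : Bil := (2⁻¹ : ℝ) • (b - pullBil J b)

/-! ### Exterior derivatives on the model space -/

def d1At (α : R4 → Cov) (y : R4) : Bil := fderiv ℝ α y - (fderiv ℝ α y).flip

def d2At (θ : R4 → Bil) (y u v w : R4) : ℝ :=
  fderiv ℝ θ y u v w - fderiv ℝ θ y v u w + fderiv ℝ θ y w u v

/-- Cut-off equal to one on the ball of radius two, zero outside radius three. -/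
def kappaBump : ContDiffBump (0 : R4) := ⟨2, 3, by norm_num, by norm_num⟩

/-- Cut-off equal to one on the ball of radius one, zero outside radius two. -/
def coreBump : ContDiffBump (0 : R4) := ⟨1, 2, by norm_num, by norm_num⟩

/-! ### Fields on the manifold -/

section Manifold

variable {X : Type u} [TopologicalSpace X] [ChartedSpace R4 X]

/-- The derivative of an inverse chart, as an endomorphism of the model space. -/
def dsymm (c : OpenPartialHomeomorph X R4) (y : R4) : Endo :=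
  mfderiv 𝓘(ℝ, R4) 𝓘(ℝ, R4) c.symm y

def view1 (c : OpenPartialHomeomorph X R4) (α : X → Cov) (y : R4) : Cov :=
  pullCov (dsymm c y) (α (c.symm y))

def view2 (c : OpenPartialHomeomorph X R4) (θ : X → Bil) (y : R4) : Bil :=
  pullBil (dsymm c y) (θ (c.symm y))

def Smooth1 (α : X → Cov) : Prop :=
  ∀ x₀ : X, ContDiffOn ℝ ∞ (view1 (chartAt R4 x₀) α) (chartAt R4 x₀).target

def Smooth2 (θ : X → Bil) : Prop :=
  (∀ x, IsAlt (θ x)) ∧
    ∀ x₀ : X, ContDiffOn ℝ ∞ (view2 (chartAt R4 x₀) θ) (chartAt R4 x₀).target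

def Cont2 (θ : X → Bil) : Prop :=
  (∀ x, IsAlt (θ x)) ∧
    ∀ x₀ : X, ContinuousOn (view2 (chartAt R4 x₀) θ) (chartAt R4 x₀).target

def Closed2 (θ : X → Bil) : Prop :=
  Smooth2 θ ∧
    ∀ x₀ : X, ∀ y ∈ (chartAt R4 x₀).target, ∀ u v w : R4,
      d2At (view2 (chartAt R4 x₀) θ) y u v w = 0

/-- Exterior derivative of a one-form. -/
def extD1 (α : X → Cov) (x : X) : Bil :=
  d1At (view1 (chartAt R4 x) α) (chartAt R4 x x)

/-- Differential of a function, read in the preferred chart of each point. -/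
def dfun (f : X → ℝ) (x : X) : Cov :=
  fderiv ℝ (fun y => f ((chartAt R4 x).symm y)) (chartAt R4 x x)

open Classical in
/-- A one-form on a chart, extended by zero. -/
def push1 (c : OpenPartialHomeomorph X R4) (α : R4 → Cov) (x : X) : Cov :=
  if x ∈ c.source then pullCov (mfderiv 𝓘(ℝ, R4) 𝓘(ℝ, R4) c x) (α (c x)) else 0

open Classical in
/-- A two-form on a chart, extended by zero. -/
def push2 (c : OpenPartialHomeomorph X R4) (θ : R4 → Bil) (x : X) : Bil :=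
  if x ∈ c.source then pullBil (mfderiv 𝓘(ℝ, R4) 𝓘(ℝ, R4) c x) (θ (c x)) else 0

end Manifold

/-- The semipositive invariant form `-α ∧ (α ∘ J)`. -/
def posForm (J : Endo) (α : Cov) : Bil := wedgeCov α (-(α.comp J))

/-- The fixed geometric data: almost complex structure, positive invariant form, finite atlas. -/
structure Geo (X : Type u) [TopologicalSpace X] [ChartedSpace R4 X]
    [IsManifold 𝓘(ℝ, R4) ∞ X] where
  J : X → Endo
  J_acs : IsAlmostComplex (X := X) J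
  omega : X → Bil
  omega_smooth : Smooth2 omega
  omega_inv : ∀ (x : X) (u v : R4), omega x (J x u) (J x v) = omega x u v
  omega_pos : ∀ (x : X) (v : R4), v ≠ 0 → 0 < omega x v (J x v)
  n : ℕ
  c : Fin n → OpenPartialHomeomorph X R4
  c_mem : ∀ i, c i ∈ IsManifold.maximalAtlas 𝓘(ℝ, R4) ∞ X
  c_target : ∀ i, (c i).target = Metric.ball 0 4
  c_cover : ∀ x : X, ∃ i, x ∈ (c i).source ∧ ‖c i x‖ ≤ 1
  c_oriented : ∀ i, ∀ y ∈ (c i).target, 0 < top22 (view2 (c i) omega y) (view2 (c i) omega y)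

namespace Geo

variable {X : Type u} [TopologicalSpace X] [ChartedSpace R4 X] [IsManifold 𝓘(ℝ, R4) ∞ X]
  (G : Geo X)

/-- The Hermitian metric `ω(u, Jv)`. -/
def metric (x : X) : Bil := (G.omega x).bilinearComp (ContinuousLinearMap.id ℝ R4) (G.J x)

def p11 (θ : X → Bil) : X → Bil := fun x => inv11 (G.J x) (θ x)

def p20 (θ : X → Bil) : X → Bil := fun x => anti20 (G.J x) (θ x)

def Inv (θ : X → Bil) : Prop :=
  ∀ (x : X) (u v : R4), θ x (G.J x u) (G.J x v) = θ x u v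

def Anti (θ : X → Bil) : Prop :=
  ∀ (x : X) (u v : R4), θ x (G.J x u) (G.J x v) = -(θ x u v)

def SemiPos (θ : X → Bil) : Prop := ∀ (x : X) (v : R4), 0 ≤ θ x v (G.J x v)

/-- `a ∧ b / ω ∧ ω`. -/
def W (x : X) (a b : Bil) : ℝ := top22 a b / top22 (G.omega x) (G.omega x)

def coreFun (i : Fin G.n) : X → ℝ :=
  (G.c i).source.indicator fun x => coreBump (G.c i x)

/-- Partition of unity subordinate to the atlas. -/
def rho (i : Fin G.n) (x : X) : ℝ := G.coreFun i x / ∑ k, G.coreFun k x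

/-- Fibre norm of one-forms. -/
def nrm1 (α : X → Cov) (x : X) : ℝ := ∑ i, G.rho i x * ‖view1 (G.c i) α (G.c i x)‖

/-- Fibre norm of two-forms. -/
def nrm2 (θ : X → Bil) (x : X) : ℝ := ∑ i, G.rho i x * ‖view2 (G.c i) θ (G.c i x)‖

/-- `nrm2` of a single value at `x`. -/
def nrmVal (x : X) (b : Bil) : ℝ := G.nrm2 (fun _ => b) x

/-- An alternating invariant value at `x`. -/
def InvAt (x : X) (b : Bil) : Prop := IsAlt b ∧ pullBil (G.J x) b = b

/-- An alternating anti-invariant value at `x`. -/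
def AntiAt (x : X) (b : Bil) : Prop := IsAlt b ∧ pullBil (G.J x) b = -b

/-- A semipositive invariant value at `x`. -/
def PosAt (x : X) (b : Bil) : Prop := G.InvAt x b ∧ ∀ v : R4, 0 ≤ b v (G.J x v)

/-- Two points lie within `r` in one of the charts. -/
def near (r : ℝ) (x : X) : Set X :=
  {z | ∃ i, x ∈ (G.c i).source ∧ z ∈ (G.c i).source ∧ ‖G.c i x‖ ≤ 3 ∧ ‖G.c i z‖ ≤ 3 ∧
    ‖G.c i x - G.c i z‖ ≤ r}

/-- `L²` norm of the `j`-th chart derivatives. -/
def hn (j : ℕ) (θ : X → Bil) : ℝ :=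
  ∑ i, Real.sqrt (∫ y, ‖iteratedFDeriv ℝ j (fun z => kappaBump z • view2 (G.c i) θ z) y‖ ^ 2)

def hsum (j : ℕ) (θ : X → Bil) : ℝ := ∑ l ∈ Finset.range (j + 1), G.hn l θ

/-- The scaled Sobolev norm of order `k`. -/
def sk (k : ℕ) (s : ℝ) (θ : X → Bil) : ℝ := ∑ l ∈ Finset.range (k + 1), s ^ l * G.hn l θ

variable [MeasurableSpace X]

/-- The measure `ω ∧ ω`. -/
def vol : Measure X :=
  ∑ i, Measure.map (G.c i).symm
    ((volume.restrict (G.c i).target).withDensity fun y =>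
      ENNReal.ofReal (G.rho i ((G.c i).symm y) *
        top22 (view2 (G.c i) G.omega y) (view2 (G.c i) G.omega y)))

/-- `∫ θ ∧ η`. -/
def pair (θ η : X → Bil) : ℝ := ∫ x, G.W x (θ x) (η x) ∂G.vol

def l2 (θ : X → Bil) : ℝ := Real.sqrt (∫ x, G.nrm2 θ x ^ 2 ∂G.vol)

/-- Average of a function at scale `r`. -/
def avg (r : ℝ) (f : X → ℝ) (x : X) : ℝ := (r ^ 4)⁻¹ * ∫ z in G.near r x, f z ∂G.vol

/-- Average of a measure at scale `r`. -/
def mavg (μ : Measure X) (r : ℝ) (x : X) : ℝ := (r ^ 4)⁻¹ * μ.real (G.near r x)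

/-- Two-dimensional density at scale `r`. -/
def dens (μ : Measure X) (r : ℝ) (x : X) : ℝ := (r ^ 2)⁻¹ * μ.real (G.near r x)

/-- Largest two-dimensional density at scales in `[s, 1]`. -/
def nu (μ : Measure X) (s : ℝ) : ℝ :=
  sSup {t | ∃ x : X, ∃ r : ℝ, s ≤ r ∧ r ≤ 1 ∧ t = G.dens μ r x}

end Geo

/-- A positive current of bidimension (1,1), as a functional on continuous two-forms. -/
structure PosCur {X : Type u} [TopologicalSpace X] [ChartedSpace R4 X]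
    [IsManifold 𝓘(ℝ, R4) ∞ X] [MeasurableSpace X] (G : Geo X) where
  mu : Measure X
  finite_mu : IsFiniteMeasure mu
  P : (X → Bil) →ₗ[ℝ] ℝ
  P_omega : ∀ f : X → ℝ, Continuous f → P (fun x => f x • G.omega x) = ∫ x, f x ∂mu
  P_anti : ∀ θ, Cont2 θ → G.Anti θ → P θ = 0
  P_nonneg : ∀ θ, Cont2 θ → G.Inv θ → G.SemiPos θ → 0 ≤ P θ

/-- A positive current `P` together with its anti-invariant partner `Q`, killing all closed forms. -/
structure Pair {X : Type u} [TopologicalSpace X] [ChartedSpace R4 X]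
    [IsManifold 𝓘(ℝ, R4) ∞ X] [MeasurableSpace X] (G : Geo X) extends PosCur G where
  Q : (X → Bil) →ₗ[ℝ] ℝ
  /-- The partner is continuous in some Sobolev norm. -/
  Q_bound : ∃ (N : ℕ) (C : ℝ), ∀ b, Smooth2 b → G.Anti b → |Q b| ≤ C * G.hsum N b
  kills : ∀ θ, Closed2 θ → P θ + Q (G.p20 θ) = 0

/-- The properties of a family of smoothing operators commuting with `d`. -/
structure Smoother {X : Type u} [TopologicalSpace X] [ChartedSpace R4 X]
    [IsManifold 𝓘(ℝ, R4) ∞ X] [MeasurableSpace X] (G : Geo X) where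
  s0 : ℝ
  s0_pos : 0 < s0
  s0_le : s0 ≤ 1
  K : ℝ
  K_one : 1 ≤ K
  ST : ℝ → (X → Bil) →ₗ[ℝ] (X → Bil)
  smooth : ∀ s, 0 < s → s ≤ s0 → ∀ θ, Smooth2 θ → Smooth2 (ST s θ)
  closed : ∀ s, 0 < s → s ≤ s0 → ∀ θ, Closed2 θ → Closed2 (ST s θ)
  exact : ∀ s, 0 < s → s ≤ s0 → ∀ α, Smooth1 α →
    ∃ β, Smooth1 β ∧ ST s (extD1 α) = extD1 β
  hsum_bound : ∀ j, ∃ C : ℝ, ∀ s, 0 < s → s ≤ s0 → ∀ θ, Smooth2 θ →
    G.hsum j (ST s θ) ≤ C * G.hsum j θ
  hsum_approx : ∀ j, ∃ C : ℝ, ∀ s, 0 < s → s ≤ s0 → ∀ θ, Smooth2 θ →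
    G.hsum j (θ - ST s θ) ≤ C * s * G.hsum (j + 1) θ
  sk_bound : ∀ k, ∃ C : ℝ, ∀ s, 0 < s → s ≤ s0 → ∀ θ, Smooth2 θ →
    G.sk k s (ST s θ) ≤ C * G.l2 θ
  sk_gain : ∀ k, ∃ C : ℝ, ∀ s, 0 < s → s ≤ s0 → ∀ θ, Smooth2 θ → G.Inv θ →
    G.sk k s (G.p20 (ST s θ)) ≤ C * s * G.l2 θ
  pt_bound : ∃ C : ℝ, ∀ s, 0 < s → s ≤ s0 → ∀ θ, Smooth2 θ → ∀ x,
    G.nrm2 (ST s θ) x ≤ C * G.avg (K * s) (G.nrm2 θ) x
  pt_inv : ∃ C : ℝ, ∀ s, 0 < s → s ≤ s0 → ∀ θ, Smooth2 θ → G.Inv θ → ∀ x,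
    G.nrm2 (G.p20 (ST s θ)) x ≤ C * s * G.avg (K * s) (G.nrm2 θ) x
  pt_anti : ∃ C : ℝ, ∀ s, 0 < s → s ≤ s0 → ∀ θ, Smooth2 θ → G.Anti θ → ∀ x,
    G.nrm2 (G.p11 (ST s θ)) x ≤ C * s * G.avg (K * s) (G.nrm2 θ) x
  pt_pos : ∃ C : ℝ, ∀ s, 0 < s → s ≤ s0 → ∀ θ, Smooth2 θ → G.Inv θ → G.SemiPos θ →
    ∀ x (v : R4), -(C * s ^ 2 * G.avg (K * s) (G.nrm2 θ) x * G.metric x v v) ≤
      ST s θ x v (G.J x v)
  transpose : ∀ s, 0 < s → s ≤ s0 → ∀ L : (X → Bil) →ₗ[ℝ] ℝ,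
    (∃ (N : ℕ) (C : ℝ), ∀ θ, Smooth2 θ → |L θ| ≤ C * G.hsum N θ) →
      ∃ F, Smooth2 F ∧ ∀ θ, Smooth2 θ → G.pair F θ = L (ST s θ)

end Vale.Agent.P204.Full
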