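import Mathlib

/-!
Final statement for P204 (Donaldson's tamed-to-compatible question) on every closed smooth four-manifold.
Only Mathlib notions are used: charts, tangent spaces, `mfderiv` and `extDeriv` in charts.
-/

open scoped Manifold ContDiff

noncomputable section

namespace Vale.Agent.P204.Full

universe u

/-- The model space `ℝ⁴`. -/
abbrev R4 : Type := EuclideanSpace ℝ (Fin 4)

variable (X : Type u) [TopologicalSpace X] [ChartedSpace R4 X]

/-- A (not necessarily smooth) real two-form on `X`. -/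
abbrev TwoForm : Type u :=
  (x : X) → (TangentSpace 𝓘(ℝ, R4) x) [⋀^Fin 2]→L[ℝ] ℝ

/-- A field of endomorphisms of the tangent spaces of `X`. -/
abbrev EndField : Type u :=
  (x : X) → TangentSpace 𝓘(ℝ, R4) x →L[ℝ] TangentSpace 𝓘(ℝ, R4) x

variable {X}

/-- The two-form read in the chart at `x₀`. -/
def formInChart (form : TwoForm X) (x₀ : X) (y : R4) : R4 [⋀^Fin 2]→L[ℝ] ℝ :=
  (form ((chartAt R4 x₀).symm y)).compContinuousLinearMap
    (mfderiv 𝓘(ℝ, R4) 𝓘(ℝ, R4) (chartAt R4 x₀).symm y)

/-- An endomorphism field read in the chart at `x₀`. -/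
def endInChart (J : EndField X) (x₀ : X) (y : R4) : R4 →L[ℝ] R4 :=
  ((mfderiv 𝓘(ℝ, R4) 𝓘(ℝ, R4) (chartAt R4 x₀) ((chartAt R4 x₀).symm y)).comp
    (J ((chartAt R4 x₀).symm y))).comp
    (mfderiv 𝓘(ℝ, R4) 𝓘(ℝ, R4) (chartAt R4 x₀).symm y)

/-- `J` is a smooth almost complex structure: it is smooth in every chart and squares to `-id`. -/
def IsAlmostComplex (J : EndField X) : Prop :=
  (∀ x₀ : X, ContDiffOn ℝ ∞ (endInChart J x₀) (chartAt R4 x₀).target) ∧
    ∀ (x : X) (v : TangentSpace 𝓘(ℝ, R4) x), J x (J x v) = -v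

/-- `form` is a symplectic form: smooth and closed in every chart, and nondegenerate. -/
def IsSymplecticForm (form : TwoForm X) : Prop :=
  (∀ x₀ : X, ContDiffOn ℝ ∞ (formInChart form x₀) (chartAt R4 x₀).target) ∧
    (∀ x₀ : X, ∀ y ∈ (chartAt R4 x₀).target, extDeriv (formInChart form x₀) y = 0) ∧
      ∀ (x : X) (v : TangentSpace 𝓘(ℝ, R4) x), v ≠ 0 →
        ∃ w : TangentSpace 𝓘(ℝ, R4) x, form x ![v, w] ≠ 0

/-- `form` tames `J`. -/
def Tames (form : TwoForm X) (J : EndField X) : Prop :=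
  ∀ (x : X) (v : TangentSpace 𝓘(ℝ, R4) x), v ≠ 0 → 0 < form x ![v, J x v]

/-- `form` is compatible with `J`: it tames `J` and is invariant under `J`. -/
def IsCompatible (form : TwoForm X) (J : EndField X) : Prop :=
  Tames form J ∧ ∀ (x : X) (u v : TangentSpace 𝓘(ℝ, R4) x), form x ![J x u, J x v] = form x ![u, v]

/-- Donaldson's question, affirmative answer on every closed four-manifold. -/
def TamedToCompatible : Prop :=
  ∀ (X : Type u) [TopologicalSpace X] [T2Space X] [CompactSpace X] [ChartedSpace R4 X]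
    [IsManifold 𝓘(ℝ, R4) ∞ X] (J : EndField X), IsAlmostComplex J →
      (∃ form : TwoForm X, IsSymplecticForm form ∧ Tames form J) →
        ∃ form : TwoForm X, IsSymplecticForm form ∧ IsCompatible form J

/-- A form taming some field of endomorphisms is nondegenerate. -/
theorem Tames.nondegenerate {form : TwoForm X} {J : EndField X} (h : Tames form J) (x : X)
    (v : TangentSpace 𝓘(ℝ, R4) x) (hv : v ≠ 0) :
    ∃ w : TangentSpace 𝓘(ℝ, R4) x, form x ![v, w] ≠ 0 :=
  ⟨J x v, (h x v hv).ne'⟩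

end Vale.Agent.P204.Full
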