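import Vale.Agent.P204.Full.Assembly
import Vale.Agent.P204.Full.Base.Main
import Vale.Agent.P204.Full.Point.Cur
import Vale.Agent.P204.Full.Point.Frame
import Vale.Agent.P204.Full.Bridge.Forms
import Vale.Agent.P204.Full.Bridge.Geo
import Vale.Agent.P204.Full.Obstruction.Obstruction
import Vale.Agent.P204.Full.Scales.Boot
import Vale.Agent.P204.Full.Density.Main
import Vale.Agent.P204.Full.Smooth.Main
import Vale.Agent.P204.Full.Potential.Kernel
import Vale.Agent.P204.Full.Split.Main
import Vale.Agent.P204.Full.Elliptic.Main
import Vale.Agent.P204.Full.Final.Main

/-!
Assembly of the finished modules: what remains is the potential.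
-/

open scoped Manifold ContDiff

noncomputable section

namespace Vale.Agent.P204.Full

universe u

/-- The theorem from the one remaining module statement. -/
theorem tamedToCompatible_of_remaining (hPot : Potential.PotentialStatement) : TamedToCompatible.{u} :=
  tamedToCompatible_of_modules Bridge.geo Bridge.bridgeIn Bridge.bridgeOut
    Elliptic.rightInverseStatement
    (Obstruction.obstruction_of Point.pointStatement baseStatement) smootherStatement
    (bootstrap_of_base baseStatement Point.pointStatement Point.curStatement)
    (Density.density_of baseStatement Point.curStatement)
    (Split.splitting_of Potential.kernel_statement hPot)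
    (Final.intersection Point.pointStatement baseStatement Point.curStatement)
    Point.positivityStatement

end Vale.Agent.P204.Full
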